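import Vale.Agent.P061.Treewidth.Standard

/-! P061: strongly thin spanning trees in all multigraphs of bounded treewidth. -/

namespace Vale.Agent.Results.P061.BoundedTreewidth

open Finset
open scoped Classical

theorem result :
    ∀ b : ℕ, ∃ C : ℕ, ∀ (V ι : Type) [Fintype V] [Nonempty V] [Fintype ι] (w : V → V → ℕ) (k : ℕ)
      (D : SimpleGraph ι) (B : ι → Finset V),
      1 ≤ k → (∀ u v, w u v = w v u) →
      (∀ S : Finset V, S.Nonempty → S ≠ univ → k ≤ ∑ u ∈ S, ∑ v ∈ Sᶜ, w u v) →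
      D.IsTree → (∀ v, ∃ s, v ∈ B s) → (∀ u v, 0 < w u v → ∃ s, u ∈ B s ∧ v ∈ B s) →
      (∀ v, (D.induce {s | v ∈ B s}).Preconnected) → (∀ s, (B s).card ≤ b) →
      ∃ T : SimpleGraph V, T.IsTree ∧ (∀ u v, T.Adj u v → 0 < w u v) ∧ ∀ S : Finset V,
        k * ((S ×ˢ Sᶜ).filter fun p => T.Adj p.1 p.2).card ≤
          C * ∑ u ∈ S, ∑ v ∈ Sᶜ, w u v :=
  fun b => ⟨Vale.P061.TW.thinConst b, fun _V _ι _ _ _ w k D B hk hs hc hD hcov he hbag hb =>
    Vale.P061.TW.thin_tree_treewidth b k w D B hD hk hs hc hcov he hbag hb⟩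

end Vale.Agent.Results.P061.BoundedTreewidth
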