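import Vale.Agent.P061.Pieces

/-! Thin spanning trees in multigraphs made of dense `k`-edge-connected pieces. -/

namespace Vale.Agent.Results.P061.DenseThinTrees

open Finset Vale.P061
open scoped Classical

theorem result :
    ∀ c : ℕ, ∃ C : ℕ, ∀ (V : Type) [Fintype V] [Nonempty V] (ι : Type) [Fintype ι]
      (w : V → V → ℕ) (k : ℕ) (P : ι → Finset V) (wp : ι → V → V → ℕ) (μ : ι → ℕ),
      1 ≤ k → (∀ u v, w u v = ∑ i, wp i u v) →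
      (∀ i u v, 0 < wp i u v → u ∈ P i ∧ v ∈ P i) →
      (∀ i u v, wp i u v = wp i v u) → (∀ i v, wp i v v = 0) → (∀ i u v, wp i u v ≤ μ i) →
      (∀ i, (P i).card * μ i ≤ c * k) →
      (∀ i, ∀ S ⊆ P i, S.Nonempty → S ≠ P i → k ≤ ∑ u ∈ S, ∑ v ∈ P i \ S, wp i u v) →
      (∀ S : Finset V, S.Nonempty → S ≠ univ → 0 < ∑ u ∈ S, ∑ v ∈ Sᶜ, w u v) →
      ∃ T : SimpleGraph V, T.IsTree ∧ (∀ u v, T.Adj u v → 0 < w u v) ∧ ∀ S : Finset V,
        k * ((S ×ˢ Sᶜ).filter fun p => T.Adj p.1 p.2).card ≤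
          C * ∑ u ∈ S, ∑ v ∈ Sᶜ, w u v :=
  fun c => ⟨8256 * c ^ 7 + 1032 * c ^ 5 + 32 * c ^ 2,
    fun _V _ _ _ι _ w k P wp μ hk hdec hsup hsym h0 hμ hn hcon hconn =>
      thin_tree_pieces w k c hk P wp μ hdec hsup hsym h0 hμ hn hcon hconn⟩

end Vale.Agent.Results.P061.DenseThinTrees
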