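import Vale.Agent.P061.Transitive.Main

/-! Strong thin spanning trees in all vertex-transitive graphs. -/

namespace Vale.Agent.Results.P061.VertexTransitive

open Finset
open scoped Classical

theorem result :
    ∃ C : ℕ, ∀ (V : Type) [Fintype V] [Nonempty V] (G : SimpleGraph V) (k : ℕ),
      G.Connected → (∀ u v : V, ∃ φ : G ≃g G, φ u = v) →
      (∀ S : Finset V, S.Nonempty → S ≠ univ →
        k ≤ ((S ×ˢ Sᶜ).filter fun p => G.Adj p.1 p.2).card) →
      ∃ T : SimpleGraph V, T ≤ G ∧ T.IsTree ∧ ∀ S : Finset V, S.Nonempty → S ≠ univ →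
        k * ((S ×ˢ Sᶜ).filter fun p => T.Adj p.1 p.2).card ≤
          C * ((S ×ˢ Sᶜ).filter fun p => G.Adj p.1 p.2).card :=
  ⟨40000 * Vale.P061.Transitive.Lam, fun _V _ _ _G _k hconn ht hk =>
    Vale.P061.Transitive.thin_tree hconn ht hk⟩

end Vale.Agent.Results.P061.VertexTransitive
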